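import Vale.Agent.P179.H905.I15

/-!
# (INT) 16: existence of the local data
-/

namespace P179I

open Finset P179P P179C P179Y Subgroup P179H524

open P179X (pp SameSec)

open scoped Classical

universe v

section

variable {p : ℕ} [hp : Fact p.Prime] {k : Type v} [Field k] [CharP k p] {red : AA →+* k}
  {G : Type} [Group G] [Fintype G] {D : Subgroup G} {l : (G → k) → k}

theorem nonempty_Irr (H : Type) [Group H] [Finite H] : Nonempty (Irr H) := by
  have := Fintype.ofFinite H
  by_contra hcon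
  rw [not_nonempty_iff] at hcon
  have h1 := sum_irr_one (1 : H)
  rw [if_pos rfl, Finset.univ_eq_empty, Finset.sum_empty] at h1
  have h2 : (Fintype.card H : ℂ) ≠ 0 := by exact_mod_cast Fintype.card_ne_zero
  exact h2 h1.symm

include hp in
theorem exists_Loc [IsAlgClosed k] (hl : BP p D l) (hD : IsPGroup p D)
    (hab : D ≤ centralizer (D : Set G)) (hreg : ∀ u ∈ D, u ≠ 1 → RegT D l u) :
    ∃ Φ aH bH ε κ₀, Loc p red D l Φ aH bH ε κ₀ := by
  -- the characters
  have h1 : ∀ H : Subgroup G, ∃ φ : Irr H, (∃ φ', ND red p (lres H l) (Nat.card D) φ') →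
      ND red p (lres H l) (Nat.card D) φ.1 := by
    intro H
    by_cases h : ∃ φ', ND red p (lres H l) (Nat.card D) φ'
    · obtain ⟨φ, hφ⟩ := h
      exact ⟨⟨φ, hφ.irr⟩, fun _ => hφ⟩
    · obtain ⟨φ⟩ := nonempty_Irr H
      exact ⟨φ, fun h' => absurd h' h⟩
  choose Φ hΦ using h1
  have hnd : ∀ u ∈ D, u ≠ 1 → ND red p (lres (centralizer {u}) l) (Nat.card D)
      (Φ (centralizer {u})).1 := fun u hu hu1 =>
    hΦ _ (exists_NDT p red hl hD hab (hreg u hu hu1))
  -- the units
  have h2 : ∀ H : Subgroup G, ∃ a b : ℕ, ND red p (lres H l) (Nat.card D) (Φ H).1 →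
      ¬ p ∣ a ∧ ¬ p ∣ b ∧ (a : ℂ) * Nat.card H = b * (Nat.card D * (Φ H).1 1) := by
    intro H
    by_cases h : ND red p (lres H l) (Nat.card D) (Φ H).1
    · obtain ⟨a, b, ha, hb, hab⟩ := h.unit
      exact ⟨a, b, fun _ => ⟨ha, hb, hab⟩⟩
    · exact ⟨0, 0, fun h' => absurd h' h⟩
  choose aH bH hunit using h2
  have hcast : ∀ n : ℕ, ¬ p ∣ n → (n : k) ≠ 0 := fun n hn => by
    rw [Ne, CharP.cast_eq_zero_iff k p]; exact hn
  by_cases hex : ∃ u₀ ∈ D, u₀ ≠ 1
  swap
  · push Not at hex
    exact ⟨Φ, aH, bH, fun _ => 1, 1, fun u hu hu1 => absurd (hex u hu) hu1,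
      fun u hu hu1 => absurd (hex u hu) hu1, fun u hu hu1 => absurd (hex u hu) hu1,
      fun u hu hu1 => absurd (hex u hu) hu1, fun u hu hu1 => absurd (hex u hu) hu1, one_ne_zero,
      fun u hu hu1 => absurd (hex u hu) hu1⟩
  obtain ⟨u₀, hu₀, hu₀1⟩ := hex
  set a₀ := aH (centralizer {u₀}) with ha₀
  set b₀ := bH (centralizer {u₀}) with hb₀
  obtain ⟨ha0, hb0, hab0⟩ := hunit _ (hnd u₀ hu₀ hu₀1)
  rw [← ha₀] at ha0
  rw [← hb₀] at hb0
  have hsq := hsq_ofT p red hl hD hab (fun w => (Φ (centralizer {w})).1) (by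
    intro w hw
    exact hΦ _ (exists_NDT p red hl hD hab hw))
  set ε : Subgroup G → ℤ := fun H => if (bH H : k) * a₀ = aH H * b₀ then 1 else -1 with hε
  refine ⟨Φ, aH, bH, ε, (a₀ : k) / b₀, hnd, ?_, ?_, ?_, ?_, ?_, ?_⟩
  · intro u hu hu1
    exact (hunit _ (hnd u hu hu1)).2.1
  · intro u hu hu1
    exact (hunit _ (hnd u hu hu1)).2.2
  · intro u _ _
    simp only [hε]
    split_ifs
    · exact Or.inl rfl
    · exact Or.inr rfl
  · intro u hu hu1
    obtain ⟨ha, hb, hab1⟩ := hunit _ (hnd u hu hu1)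
    have h3 := hsq u u₀ (hreg u hu hu1) (hreg u₀ hu₀ hu₀1) _ _ _ _ ha hb ha0 hb0 hab1 hab0
    rcases sq_eq_sq_iff_eq_or_eq_neg.1 h3 with h4 | h4
    · simp only [hε]
      rw [if_pos h4]
      have := hcast _ hb0
      field_simp
      push_cast
      linear_combination (-1 : k) * h4
    · simp only [hε]
      by_cases h5 : (bH (centralizer {u}) : k) * a₀ = aH (centralizer {u}) * b₀
      · rw [if_pos h5]
        have := hcast _ hb0
        field_simp
        push_cast
        linear_combination (-1 : k) * h5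
      · rw [if_neg h5]
        have := hcast _ hb0
        field_simp
        push_cast
        linear_combination h4
  · exact div_ne_zero (hcast _ ha0) (hcast _ hb0)
  · intro u hu hu1 t ht
    have hu' := conj_mem (D := D) _ (stabT_le_norm D l) ht hu
    have hu1' := conj_ne (t := t) hu1
    obtain ⟨ha, hb, hab1⟩ := hunit _ (hnd u hu hu1)
    obtain ⟨ha', hb', hab1'⟩ := hunit _ (hnd _ hu' hu1')
    have hval : (Φ (centralizer {t * u * t⁻¹})).1 1 = (Φ (centralizer {u})).1 1 := by
      have := phi_conj hl hu ht (hnd u hu hu1) (hnd _ hu' hu1') (s := 1) (by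
        rw [orderOf_one]; exact hp.out.one_lt.ne' ∘ Nat.dvd_one.1)
      rwa [map_one] at this
    rw [hval, ← Nat.card_congr (cEquiv t u).toEquiv] at hab1'
    have hcard0 : (Nat.card (centralizer {u} : Subgroup G) : ℂ) ≠ 0 := by
      exact_mod_cast Nat.card_pos.ne'
    have h3 : (aH (centralizer {t * u * t⁻¹}) : ℂ) * bH (centralizer {u}) =
        aH (centralizer {u}) * bH (centralizer {t * u * t⁻¹}) := by
      apply mul_right_cancel₀ hcard0
      linear_combination (bH (centralizer {u}) : ℂ) * hab1' -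
        (bH (centralizer {t * u * t⁻¹}) : ℂ) * hab1
    have h4 : (aH (centralizer {t * u * t⁻¹}) : k) * bH (centralizer {u}) =
        aH (centralizer {u}) * bH (centralizer {t * u * t⁻¹}) := by
      have h5 : aH (centralizer {t * u * t⁻¹}) * bH (centralizer {u}) =
        aH (centralizer {u}) * bH (centralizer {t * u * t⁻¹}) := by exact_mod_cast h3
      exact_mod_cast congrArg (fun n : ℕ => (n : k)) h5
    have h5 : ((bH (centralizer {t * u * t⁻¹}) : k) * a₀ = aH (centralizer {t * u * t⁻¹}) * b₀) ↔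
        ((bH (centralizer {u}) : k) * a₀ = aH (centralizer {u}) * b₀) := by
      constructor
      · intro h6
        apply mul_left_cancel₀ (hcast _ hb')
        linear_combination (bH (centralizer {u}) : k) * h6 + (b₀ : k) * h4
      · intro h6
        apply mul_left_cancel₀ (hcast _ hb)
        linear_combination (bH (centralizer {t * u * t⁻¹}) : k) * h6 - (b₀ : k) * h4
    simp only [hε, h5]

end

end P179I
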